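import Vale.Agent.P101.MinT

namespace Vale.Agent.Results.P101.KR

open Vale.Agent.P101

universe u

theorem result : ∀ (Z : Type u) [CStarAlgebra Z], IsJiangSu Z →
    ∀ (A : Type u) [CStarAlgebra A] [Nontrivial A] [TopologicalSpace.SeparableSpace A]
      (ω : Ultrafilter ℕ), (ω : Filter ℕ) ≤ Filter.cofinite →
      ¬ HasCharacter (CentralSeq A ω) → Absorbs A Z :=
  fun _ _ hZ _ _ _ _ _ hω h => absorbs hZ hω h

end Vale.Agent.Results.P101.KR
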