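import Vale.Agent.P101.JStd

namespace Vale.Agent.Results.P101.KRJS

open Vale.Agent.P101

universe u

theorem result : ∃ (Z : Type u) (_ : CStarAlgebra Z), IsJS Z ∧
    ∀ (A : Type u) [CStarAlgebra A] [Nontrivial A] [TopologicalSpace.SeparableSpace A]
      (ω : Ultrafilter ℕ), (ω : Filter ℕ) ≤ Filter.cofinite →
      ¬ HasCharacter (CentralSeq A ω) → Absorbs A Z := by
  obtain ⟨Z, _, hZ⟩ := exists_isJiangSu.{u}
  exact ⟨Z, _, hZ.isJS, fun _ _ _ _ _ hω h => absorbs hZ hω h⟩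

end Vale.Agent.Results.P101.KRJS
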